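import Vale.Agent.P235.H56.MinTrans

/-!
# Wagner's step, row [W-TRI] (helper509)

`S = {x, y, z}`, three pairwise disjoint connected sets off `S` all whose outer neighbours are in
`S`: every side of `S` with the triangle on `S` is a minor of `G` (two other sides are contracted
into `x` and into `y`), it is 3-connected if `G` is, and `G` with the triangle on `S` has no `K_5`
minor if `G` has none.
-/

set_option autoImplicit false

namespace Vale.Agent.P235.K5.H509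

open SimpleGraph Vale.Agent.P235.H134 Vale.Agent.P235.H56

variable {V : Type}

/-- the complete graph on `S`, all other vertices isolated -/
def cliq (S : Set V) : SimpleGraph V where
  Adj a b := a ≠ b ∧ a ∈ S ∧ b ∈ S
  symm := ⟨fun _ _ h => ⟨h.1.symm, h.2.2, h.2.1⟩⟩
  loopless := ⟨fun _ h => h.1 rfl⟩

/-- all outer neighbours of `C` are in `S` -/
def Cl (G : SimpleGraph V) (S C : Set V) : Prop := ∀ u ∈ C, ∀ v, G.Adj u v → v ∈ C ∨ v ∈ S

/-- a side of `{x, y, z}` sees `z` -/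
theorem sees {G : SimpleGraph V} (h3 : Conn3 G) {x y z : V} {C : Set V} (hC : C.Nonempty)
    (hx : x ∉ C) (hy : y ∉ C) (hz : z ∉ C) (hzx : z ≠ x) (hzy : z ≠ y)
    (hcl : Cl G {x, y, z} C) : ∃ u ∈ C, G.Adj u z := by
  by_contra hn
  have hn' : ∀ u ∈ C, ¬ G.Adj u z := fun u hu h => hn ⟨u, hu, h⟩
  rcases h3 x y C hC hx hy (fun u hu v huv => by
    rcases hcl u hu v huv with h | h | h | h
    · exact Or.inl h
    · exact Or.inr (Or.inl h)
    · exact Or.inr (Or.inr h)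
    · exact absurd ((show v = z from h) ▸ huv) (hn' u hu)) z with h | h | h
  · exact hz h
  · exact hzx h
  · exact hzy h

theorem conn_insert {G : SimpleGraph V} {D : Set V} (hD : (G.induce D).Connected) {x u : V}
    (hu : u ∈ D) (h : G.Adj u x) : (G.induce ({x} ∪ D)).Connected :=
  connected_induce_union (conn_single G x).preconnected hD.preconnected rfl hu h.symm

/-- the side `C` with the triangle on `{x, y, z}` is a minor: `D` is contracted into `x`, `E`
into `y`; `D` sees `x, y, z` and `E` sees `y, z` -/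
theorem tri_minor_of_sees {G : SimpleGraph V} {x y z : V} (hxy : x ≠ y) {C D E : Set V}
    (cD : (G.induce D).Connected) (cE : (G.induce E).Connected)
    (hCD : Disjoint C D) (hCE : Disjoint C E) (hDE : Disjoint D E)
    (hDS : Disjoint ({x, y, z} : Set V) D) (hES : Disjoint ({x, y, z} : Set V) E)
    (dx : ∃ u ∈ D, G.Adj u x) (dy : ∃ u ∈ D, G.Adj u y) (dz : ∃ u ∈ D, G.Adj u z)
    (ey : ∃ u ∈ E, G.Adj u y) (ez : ∃ u ∈ E, G.Adj u z) :
    IsMinor ((G ⊔ cliq {x, y, z}).induce (C ∪ {x, y, z})) G := by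
  classical
  have hxD : x ∉ D := Set.disjoint_left.1 hDS (by simp)
  have hyE : y ∉ E := Set.disjoint_left.1 hES (by simp)
  let ν : V → Set V := fun v => {p | p = v ∨ (v = x ∧ p ∈ D) ∨ (v = y ∧ p ∈ E)}
  have hνx : ν x = {x} ∪ D := by
    ext p
    constructor
    · rintro (h | ⟨-, h⟩ | ⟨h, -⟩)
      · exact Or.inl h
      · exact Or.inr h
      · exact absurd h hxy
    · rintro (h | h)
      · exact Or.inl h
      · exact Or.inr (Or.inl ⟨rfl, h⟩)
  have hνy : ν y = {y} ∪ E := by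
    ext p
    constructor
    · rintro (h | ⟨h, -⟩ | ⟨-, h⟩)
      · exact Or.inl h
      · exact absurd h.symm hxy
      · exact Or.inr h
    · rintro (h | h)
      · exact Or.inl h
      · exact Or.inr (Or.inr ⟨rfl, h⟩)
  have hνo : ∀ v, v ≠ x → v ≠ y → ν v = {v} := by
    intro v h1 h2
    ext p
    constructor
    · rintro (h | ⟨h, -⟩ | ⟨h, -⟩)
      · exact h
      · exact absurd h h1
      · exact absurd h h2
    · intro h
      exact Or.inl h
  have hself : ∀ v, v ∈ ν v := fun v => Or.inl rfl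
  have hoffD : ∀ v ∈ C ∪ {x, y, z}, v ∉ D := by
    rintro v (hv | hv)
    · exact Set.disjoint_left.1 hCD hv
    · exact Set.disjoint_left.1 hDS hv
  have hoffE : ∀ v ∈ C ∪ {x, y, z}, v ∉ E := by
    rintro v (hv | hv)
    · exact Set.disjoint_left.1 hCE hv
    · exact Set.disjoint_left.1 hES hv
  refine ⟨fun v => ν v.1, fun v => ?_, fun v w hvw => ?_, fun v w hvw => ?_⟩
  · show (G.induce (ν v.1)).Connected
    by_cases h1 : v.1 = x
    · obtain ⟨u, hu, hux⟩ := dx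
      rw [h1, hνx]
      exact conn_insert cD hu hux
    by_cases h2 : v.1 = y
    · obtain ⟨u, hu, huy⟩ := ey
      rw [h2, hνy]
      exact conn_insert cE hu huy
    rw [hνo v.1 h1 h2]
    exact conn_single G v.1
  · show Disjoint (ν v.1) (ν w.1)
    have hne : v.1 ≠ w.1 := fun h => hvw (Subtype.ext h)
    rw [Set.disjoint_left]
    rintro p (hp | ⟨hp, hp'⟩ | ⟨hp, hp'⟩) (hq | ⟨hq, hq'⟩ | ⟨hq, hq'⟩)
    · exact hne (hp.symm.trans hq)
    · exact hoffD v.1 v.2 (hp ▸ hq')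
    · exact hoffE v.1 v.2 (hp ▸ hq')
    · exact hoffD w.1 w.2 (hq ▸ hp')
    · exact hne (hp.trans hq.symm)
    · exact Set.disjoint_left.1 hDE hp' hq'
    · exact hoffE w.1 w.2 (hq ▸ hp')
    · exact Set.disjoint_left.1 hDE hq' hp'
    · exact hne (hp.trans hq.symm)
  · show ∃ p ∈ ν v.1, ∃ q ∈ ν w.1, G.Adj p q
    have hxyp : ∃ p ∈ ν x, ∃ q ∈ ν y, G.Adj p q := by
      obtain ⟨u, hu, h⟩ := dy
      exact ⟨u, Or.inr (Or.inl ⟨rfl, hu⟩), y, hself y, h⟩
    have hxzp : ∃ p ∈ ν x, ∃ q ∈ ν z, G.Adj p q := by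
      obtain ⟨u, hu, h⟩ := dz
      exact ⟨u, Or.inr (Or.inl ⟨rfl, hu⟩), z, hself z, h⟩
    have hyzp : ∃ p ∈ ν y, ∃ q ∈ ν z, G.Adj p q := by
      obtain ⟨u, hu, h⟩ := ez
      exact ⟨u, Or.inr (Or.inr ⟨rfl, hu⟩), z, hself z, h⟩
    have hsw : ∀ a b, (∃ p ∈ ν a, ∃ q ∈ ν b, G.Adj p q) → ∃ p ∈ ν b, ∃ q ∈ ν a, G.Adj p q := by
      rintro a b ⟨p, hp, q, hq, h⟩
      exact ⟨q, hq, p, hp, h.symm⟩
    have hvw' : G.Adj v.1 w.1 ∨ (v.1 ≠ w.1 ∧ v.1 ∈ ({x, y, z} : Set V) ∧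
        w.1 ∈ ({x, y, z} : Set V)) := hvw
    rcases hvw' with h | ⟨hne, hv, hw⟩
    · exact ⟨v.1, hself _, w.1, hself _, h⟩
    · generalize v.1 = a at hne hv ⊢
      generalize w.1 = b at hne hw ⊢
      rcases hv with rfl | rfl | rfl <;> rcases hw with rfl | rfl | rfl
      all_goals first
        | exact absurd rfl hne
        | exact hxyp
        | exact hxzp
        | exact hyzp
        | exact hsw _ _ hxyp
        | exact hsw _ _ hxzp
        | exact hsw _ _ hyzp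

/-- [W-TRI] the side `C` with the triangle on the 3-cut is a minor of `G` -/
theorem tri_minor {G : SimpleGraph V} (h3 : Conn3 G) {x y z : V} (hxy : x ≠ y) (hxz : x ≠ z)
    (hyz : y ≠ z) {C D E : Set V} (cD : (G.induce D).Connected) (cE : (G.induce E).Connected)
    (hCD : Disjoint C D) (hCE : Disjoint C E) (hDE : Disjoint D E)
    (hDS : Disjoint ({x, y, z} : Set V) D) (hES : Disjoint ({x, y, z} : Set V) E)
    (lD : Cl G {x, y, z} D) (lE : Cl G {x, y, z} E) :
    IsMinor ((G ⊔ cliq {x, y, z}).induce (C ∪ {x, y, z})) G := by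
  have hne : ∀ {A : Set V}, (G.induce A).Connected → A.Nonempty := fun {A} h => by
    obtain ⟨⟨a, ha⟩⟩ := h.nonempty
    exact ⟨a, ha⟩
  have hx : ∀ {A : Set V}, Disjoint ({x, y, z} : Set V) A → x ∉ A :=
    fun h => Set.disjoint_left.1 h (by simp)
  have hy : ∀ {A : Set V}, Disjoint ({x, y, z} : Set V) A → y ∉ A :=
    fun h => Set.disjoint_left.1 h (by simp)
  have hz : ∀ {A : Set V}, Disjoint ({x, y, z} : Set V) A → z ∉ A :=
    fun h => Set.disjoint_left.1 h (by simp)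
  have e1 : ({x, y, z} : Set V) = {y, z, x} := by
    ext p
    simp only [Set.mem_insert_iff, Set.mem_singleton_iff]
    tauto
  have e2 : ({x, y, z} : Set V) = {x, z, y} := by
    ext p
    simp only [Set.mem_insert_iff, Set.mem_singleton_iff]
    tauto
  have sx : ∀ {A : Set V}, A.Nonempty → Disjoint ({x, y, z} : Set V) A → Cl G {x, y, z} A →
      ∃ u ∈ A, G.Adj u x := fun {A} n d l =>
    sees h3 n (hy d) (hz d) (hx d) hxy hxz (e1 ▸ l)
  have sy : ∀ {A : Set V}, A.Nonempty → Disjoint ({x, y, z} : Set V) A → Cl G {x, y, z} A →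
      ∃ u ∈ A, G.Adj u y := fun {A} n d l =>
    sees h3 n (hx d) (hz d) (hy d) hxy.symm hyz (e2 ▸ l)
  have sz : ∀ {A : Set V}, A.Nonempty → Disjoint ({x, y, z} : Set V) A → Cl G {x, y, z} A →
      ∃ u ∈ A, G.Adj u z := fun {A} n d l =>
    sees h3 n (hx d) (hy d) (hz d) hxz.symm hyz.symm l
  exact tri_minor_of_sees hxy cD cE hCD hCE hDE hDS hES (sx (hne cD) hDS lD)
    (sy (hne cD) hDS lD) (sz (hne cD) hDS lD) (sy (hne cE) hES lE) (sz (hne cE) hES lE)

/-- a side of `S` with the complete graph on `S` is again 3-connected -/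
theorem conn3_piece {G : SimpleGraph V} (h3 : Conn3 G) {S C : Set V} (hcl : Cl G S C) :
    Conn3 ((G ⊔ cliq S).induce (C ∪ S)) := by
  intro s t A hA hs ht hAc y
  have hstep : ∀ u ∈ A, ∀ v (hv : v ∈ C ∪ S), G.Adj u.1 v →
      (∃ hv' : v ∈ C ∪ S, (⟨v, hv'⟩ : ↑(C ∪ S)) ∈ A) ∨ v = s.1 ∨ v = t.1 := by
    intro u hu v hv huv
    rcases hAc u hu ⟨v, hv⟩ (Or.inl huv) with h | h | h
    · exact Or.inl ⟨hv, h⟩
    · exact Or.inr (Or.inl (congrArg Subtype.val h))
    · exact Or.inr (Or.inr (congrArg Subtype.val h))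
  by_cases hAS : ∃ a ∈ A, a.1 ∈ S
  · obtain ⟨a, haA, haS⟩ := hAS
    have hSA : ∀ v (hv : v ∈ S), (∃ hv' : v ∈ C ∪ S, (⟨v, hv'⟩ : ↑(C ∪ S)) ∈ A) ∨
        v = s.1 ∨ v = t.1 := by
      intro v hv
      by_cases e : a.1 = v
      · refine Or.inl ⟨Or.inr hv, ?_⟩
        have : (⟨v, Or.inr hv⟩ : ↑(C ∪ S)) = a := Subtype.ext e.symm
        rw [this]
        exact haA
      · rcases hAc a haA ⟨v, Or.inr hv⟩ (Or.inr ⟨e, haS, hv⟩) with h | h | h
        · exact Or.inl ⟨Or.inr hv, h⟩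
        · exact Or.inr (Or.inl (congrArg Subtype.val h))
        · exact Or.inr (Or.inr (congrArg Subtype.val h))
    let A' : Set V := {v | v ∉ C ∪ S ∨ ∃ hv : v ∈ C ∪ S, (⟨v, hv⟩ : ↑(C ∪ S)) ∈ A}
    have hs' : s.1 ∉ A' := by
      rintro (h | ⟨_, h⟩)
      · exact h s.2
      · exact hs h
    have ht' : t.1 ∉ A' := by
      rintro (h | ⟨_, h⟩)
      · exact h t.2
      · exact ht h
    have hcl' : ∀ u ∈ A', ∀ v, G.Adj u v → v ∈ A' ∨ v = s.1 ∨ v = t.1 := by
      intro u hu v huv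
      by_cases hv : v ∈ C ∪ S
      · rcases hu with hu | ⟨hu, huA⟩
        · rcases hv with hvC | hvS
          · rcases hcl v hvC u huv.symm with h | h
            · exact absurd (Or.inl h) hu
            · exact absurd (Or.inr h) hu
          · rcases hSA v hvS with h | h
            · exact Or.inl (Or.inr h)
            · exact Or.inr h
        · rcases hstep ⟨u, hu⟩ huA v hv huv with h | h
          · exact Or.inl (Or.inr h)
          · exact Or.inr h
      · exact Or.inl (Or.inl hv)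
    rcases h3 s.1 t.1 A' ⟨a.1, Or.inr ⟨a.2, haA⟩⟩ hs' ht' hcl' y.1 with (h | ⟨_, h⟩) | h | h
    · exact absurd y.2 h
    · exact Or.inl h
    · exact Or.inr (Or.inl (Subtype.ext h))
    · exact Or.inr (Or.inr (Subtype.ext h))
  · have hAC : ∀ a ∈ A, a.1 ∈ C := by
      intro a ha
      rcases a.2 with h | h
      · exact h
      · exact absurd ⟨a, ha, h⟩ hAS
    let A' : Set V := {v | ∃ hv : v ∈ C ∪ S, (⟨v, hv⟩ : ↑(C ∪ S)) ∈ A}
    have hs' : s.1 ∉ A' := fun ⟨_, h⟩ => hs h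
    have ht' : t.1 ∉ A' := fun ⟨_, h⟩ => ht h
    have hcl' : ∀ u ∈ A', ∀ v, G.Adj u v → v ∈ A' ∨ v = s.1 ∨ v = t.1 := by
      rintro u ⟨hu, huA⟩ v huv
      have hv : v ∈ C ∪ S := hcl u (hAC _ huA) v huv
      exact hstep ⟨u, hu⟩ huA v hv huv
    obtain ⟨a, ha⟩ := hA
    rcases h3 s.1 t.1 A' ⟨a.1, a.2, ha⟩ hs' ht' hcl' y.1 with ⟨_, h⟩ | h | h
    · exact Or.inl h
    · exact Or.inr (Or.inl (Subtype.ext h))
    · exact Or.inr (Or.inr (Subtype.ext h))

/-- a connected set off `S` which meets a side is contained in it -/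
theorem sub_of_meet {G : SimpleGraph V} {S A K : Set V} (hA : Cl G S A)
    (hK : (G.induce K).Preconnected) (hKS : Disjoint K S) {p : V} (hp : p ∈ K) (hpA : p ∈ A) :
    K ⊆ A := by
  have key : ∀ {a b : K} (_ : (G.induce K).Walk a b), a.1 ∈ A → b.1 ∈ A := by
    intro a b w
    induction w with
    | nil => exact id
    | @cons a b c hab _ ih =>
      intro ha
      apply ih
      rcases hA a.1 ha b.1 hab with h | h
      · exact h
      · exact absurd h (Set.disjoint_left.1 hKS b.2)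
  intro q hq
  obtain ⟨w⟩ := hK ⟨p, hp⟩ ⟨q, hq⟩
  exact key w hpA

/-- the component of `p` in `G - S` -/
def compo (G : SimpleGraph V) (S : Set V) (p : V) : Set V :=
  {v | ∃ T : Set V, p ∈ T ∧ v ∈ T ∧ Disjoint T S ∧ (G.induce T).Connected}

theorem compo_cl (G : SimpleGraph V) (S : Set V) (p : V) : Cl G S (compo G S p) := by
  rintro u ⟨T, hp, hu, hT, hc⟩ v huv
  by_cases hv : v ∈ S
  · exact Or.inr hv
  · refine Or.inl ⟨{v} ∪ T, Or.inr hp, Or.inl rfl, ?_, conn_insert hc hu huv⟩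
    rw [Set.disjoint_left]
    rintro w (hw | hw)
    · have hw' : w = v := hw
      exact hw' ▸ hv
    · exact Set.disjoint_left.1 hT hw

theorem compo_off (G : SimpleGraph V) (S : Set V) (p : V) : Disjoint (compo G S p) S := by
  rw [Set.disjoint_left]
  rintro u ⟨T, hp, hu, hT, hc⟩
  exact Set.disjoint_left.1 hT hu

theorem compo_conn (G : SimpleGraph V) (S : Set V) (p : V) (hp : p ∉ S) :
    (G.induce (compo G S p)).Connected := by
  have hpp : p ∈ compo G S p :=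
    ⟨{p}, rfl, rfl, Set.disjoint_left.2 (fun w hw => (show w = p from hw) ▸ hp), conn_single G p⟩
  refine induce_connected_of_patches p hpp fun {v} hv => ?_
  obtain ⟨T, hpT, hvT, hT, hc⟩ := hv
  exact ⟨T, fun w hw => ⟨T, hpT, hw, hT, hc⟩, hpT, hvT, hc.preconnected _ _⟩

theorem compo_sub {G : SimpleGraph V} {S A : Set V} (hA : Cl G S A) {p q : V}
    (hq : q ∈ compo G S p) (hqA : q ∈ A) : p ∈ A := by
  obtain ⟨T, hpT, hqT, hT, hc⟩ := hq
  exact sub_of_meet hA hc.preconnected hT hqT hqA hpT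

/-- restriction of a connected set of `H` to `K ∪ S`, `S` a clique which separates `K` -/
theorem conn_restrict {H : SimpleGraph V} {S K M : Set V}
    (hS : ∀ a ∈ S, ∀ b ∈ S, a ≠ b → H.Adj a b) (hK : Cl H S K)
    (hM : (H.induce M).Connected) (hne : (M ∩ (K ∪ S)).Nonempty) :
    (H.induce (M ∩ (K ∪ S))).Connected := by
  have key : ∀ {p q : M} (_ : (H.induce M).Walk p q) (hq : q.1 ∈ K ∪ S),
      (∀ hp : p.1 ∈ K ∪ S, (H.induce (M ∩ (K ∪ S))).Reachable ⟨p.1, p.2, hp⟩ ⟨q.1, q.2, hq⟩) ∧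
      (p.1 ∉ K ∪ S → ∀ σ (hσ : σ ∈ S) (hσM : σ ∈ M),
        (H.induce (M ∩ (K ∪ S))).Reachable ⟨σ, hσM, Or.inr hσ⟩ ⟨q.1, q.2, hq⟩) := by
    intro p q w
    induction w with
    | nil => exact fun hq => ⟨fun _ => Reachable.refl _, fun h => absurd hq h⟩
    | @cons a b c hab _ ih =>
      intro hq
      have hab' : H.Adj a.1 b.1 := hab
      refine ⟨fun ha => ?_, fun ha σ hσ hσM => ?_⟩
      · by_cases hb : b.1 ∈ K ∪ S
        · refine Reachable.trans (Adj.reachable ?_) ((ih hq).1 hb)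
          exact hab'
        · rcases ha with haK | haS
          · exact absurd (hK a.1 haK b.1 hab') hb
          · exact (ih hq).2 hb a.1 haS a.2
      · by_cases hb : b.1 ∈ K ∪ S
        · rcases hb with hbK | hbS
          · exact absurd (hK b.1 hbK a.1 hab'.symm) ha
          · by_cases e : σ = b.1
            · subst e
              exact (ih hq).1 (Or.inr hbS)
            · refine Reachable.trans (Adj.reachable ?_) ((ih hq).1 (Or.inr hbS))
              exact hS σ hσ b.1 hbS e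
        · exact (ih hq).2 hb σ hσ hσM
  obtain ⟨m, hm⟩ := hne
  have : Nonempty (↑(M ∩ (K ∪ S))) := ⟨⟨m, hm⟩⟩
  refine ⟨fun p q => ?_⟩
  obtain ⟨w⟩ := hM.preconnected ⟨p.1, p.2.1⟩ ⟨q.1, q.2.1⟩
  exact (key w q.2.2).1 p.2.2

theorem conn_induce_sub {H : SimpleGraph V} {T M : Set V} (h : (H.induce (M ∩ T)).Connected) :
    ((H.induce T).induce {v : T | v.1 ∈ M}).Connected := by
  obtain ⟨⟨m, hm⟩⟩ := h.nonempty
  have : Nonempty ({v : T | v.1 ∈ M}) := ⟨⟨⟨m, hm.2⟩, hm.1⟩⟩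
  refine ⟨fun p q => ?_⟩
  let f : (H.induce (M ∩ T)) →g ((H.induce T).induce {v : T | v.1 ∈ M}) :=
    ⟨fun v => ⟨⟨v.1, v.2.2⟩, v.2.1⟩, fun {a b} hab => hab⟩
  exact (h.preconnected ⟨p.1.1, p.2, p.1.2⟩ ⟨q.1.1, q.2, q.1.2⟩).map f

/-- a complete minor of `H` with a branch set in the side `K` of the clique `S` lives in `K ∪ S` -/
theorem side_minor {W : Type} {H : SimpleGraph V} {S K : Set V}
    (hS : ∀ a ∈ S, ∀ b ∈ S, a ≠ b → H.Adj a b) (hK : Cl H S K)
    {μ : W → Set V} (h1 : ∀ a, (H.induce (μ a)).Connected)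
    (h2 : ∀ a b, a ≠ b → Disjoint (μ a) (μ b))
    (h3 : ∀ a b, a ≠ b → ∃ x ∈ μ a, ∃ y ∈ μ b, H.Adj x y) {a₀ : W} (h0 : μ a₀ ⊆ K) :
    IsMinor (⊤ : SimpleGraph W) (H.induce (K ∪ S)) := by
  have hmeet : ∀ a, (μ a ∩ (K ∪ S)).Nonempty := by
    intro a
    by_cases e : a = a₀
    · subst e
      obtain ⟨⟨m, hm⟩⟩ := (h1 a).nonempty
      exact ⟨m, hm, Or.inl (h0 hm)⟩
    · obtain ⟨x, hx, y, hy, hxy⟩ := h3 a a₀ e
      exact ⟨x, hx, hK y (h0 hy) x hxy.symm⟩
  have hoff : ∀ a, Disjoint (μ a) S → μ a ⊆ K := by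
    intro a ha
    obtain ⟨m, hm, hm'⟩ := hmeet a
    rcases hm' with hm' | hm'
    · exact sub_of_meet hK (h1 a).preconnected ha hm hm'
    · exact absurd hm' (Set.disjoint_left.1 ha hm)
  refine ⟨fun a => {v | v.1 ∈ μ a}, fun a => ?_, fun a b hab => ?_, fun a b hab => ?_⟩
  · exact conn_induce_sub (conn_restrict hS hK (h1 a) (hmeet a))
  · rw [Set.disjoint_left]
    intro v hv hv'
    exact Set.disjoint_left.1 (h2 a b hab) hv hv'
  · have hab' : a ≠ b := hab
    obtain ⟨x, hx, y, hy, hxy⟩ := h3 a b hab'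
    by_cases ha : Disjoint (μ a) S
    · have hxK := hoff a ha hx
      exact ⟨⟨x, Or.inl hxK⟩, hx, ⟨y, hK x hxK y hxy⟩, hy, hxy⟩
    by_cases hb : Disjoint (μ b) S
    · have hyK := hoff b hb hy
      exact ⟨⟨x, hK y hyK x hxy.symm⟩, hx, ⟨y, Or.inl hyK⟩, hy, hxy⟩
    · obtain ⟨p, hp, hpS⟩ := Set.not_disjoint_iff.1 ha
      obtain ⟨q, hq, hqS⟩ := Set.not_disjoint_iff.1 hb
      have hpq : p ≠ q := fun e => Set.disjoint_left.1 (h2 a b hab') hp (e ▸ hq)
      exact ⟨⟨p, Or.inr hpS⟩, hp, ⟨q, Or.inr hqS⟩, hq, hS p hpS q hqS hpq⟩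

/-- `K_5` minors and the sides of `{x, y, z}`: if `G` with the triangle on `{x, y, z}` has a `K_5`
minor then so has some component of `G - {x, y, z}` together with the triangle -/
theorem k5_side {G : SimpleGraph V} {x y z : V}
    (h : IsMinor (⊤ : SimpleGraph (Fin 5)) (G ⊔ cliq {x, y, z})) :
    ∃ p, p ∉ ({x, y, z} : Set V) ∧ IsMinor (⊤ : SimpleGraph (Fin 5))
      ((G ⊔ cliq {x, y, z}).induce (compo G {x, y, z} p ∪ {x, y, z})) := by
  classical
  obtain ⟨μ, h1, h2, h3⟩ := h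
  have hex : ∃ a₀, Disjoint (μ a₀) ({x, y, z} : Set V) := by
    by_contra hn
    have hn' : ∀ a, ∃ s, s ∈ μ a ∧ s ∈ ({x, y, z} : Set V) := by
      intro a
      have := Set.not_disjoint_iff.1 (fun h => hn ⟨a, h⟩)
      exact this
    choose f hf hf' using hn'
    have hinj : Function.Injective f := by
      intro a b hab
      by_contra hne
      exact Set.disjoint_left.1 (h2 a b hne) (hf a) (hab ▸ hf b)
    have hc : (Finset.univ.image f).card = 5 := by
      rw [Finset.card_image_of_injective _ hinj, Finset.card_univ, Fintype.card_fin]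
    have hs : Finset.univ.image f ⊆ {x, y, z} := by
      intro v hv
      obtain ⟨a, -, rfl⟩ := Finset.mem_image.1 hv
      have := hf' a
      simp only [Set.mem_insert_iff, Set.mem_singleton_iff] at this
      simp only [Finset.mem_insert, Finset.mem_singleton]
      exact this
    have := (Finset.card_le_card hs).trans Finset.card_le_three
    omega
  obtain ⟨a₀, ha₀⟩ := hex
  obtain ⟨⟨p, hp⟩⟩ := (h1 a₀).nonempty
  have hpS : p ∉ ({x, y, z} : Set V) := Set.disjoint_left.1 ha₀ hp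
  have hS : ∀ a ∈ ({x, y, z} : Set V), ∀ b ∈ ({x, y, z} : Set V), a ≠ b →
      (G ⊔ cliq {x, y, z}).Adj a b := fun a ha b hb hab => Or.inr ⟨hab, ha, hb⟩
  have hK : Cl (G ⊔ cliq {x, y, z}) {x, y, z} (compo G {x, y, z} p) := by
    rintro u hu v (huv | huv)
    · exact compo_cl G _ p u hu v huv
    · exact Or.inr huv.2.2
  have hpp : p ∈ compo G {x, y, z} p :=
    ⟨{p}, rfl, rfl, Set.disjoint_left.2 (fun w hw => (show w = p from hw) ▸ hpS),
      conn_single G p⟩
  refine ⟨p, hpS, side_minor hS hK h1 h2 (fun a b hab => h3 a b hab) (a₀ := a₀) ?_⟩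
  exact sub_of_meet hK (h1 a₀).preconnected ha₀ hp hpp

/-- [W-TRI] three sides of `S = {x, y, z}`, `G` without a `K_5` minor: `G` with the triangle on `S`
has no `K_5` minor -/
theorem tri_free {G : SimpleGraph V} (h3 : Conn3 G) {x y z : V} (hxy : x ≠ y) (hxz : x ≠ z)
    (hyz : y ≠ z) (A : Fin 3 → Set V) (cA : ∀ j, (G.induce (A j)).Connected)
    (dA : ∀ i j, i ≠ j → Disjoint (A i) (A j)) (sA : ∀ j, Disjoint ({x, y, z} : Set V) (A j))
    (lA : ∀ j, Cl G {x, y, z} (A j)) (hK : ¬ IsMinor (⊤ : SimpleGraph (Fin 5)) G) :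
    ¬ IsMinor (⊤ : SimpleGraph (Fin 5)) (G ⊔ cliq {x, y, z}) := by
  intro h
  obtain ⟨p, hp, hm⟩ := k5_side h
  have hmeet : ∀ i, ¬ Disjoint (compo G {x, y, z} p) (A i) → p ∈ A i := by
    intro i hi
    obtain ⟨q, hq, hq'⟩ := Set.not_disjoint_iff.1 hi
    exact compo_sub (lA i) hq hq'
  have hex : ∃ i j, i ≠ j ∧ Disjoint (compo G {x, y, z} p) (A i) ∧
      Disjoint (compo G {x, y, z} p) (A j) := by
    by_cases e0 : Disjoint (compo G {x, y, z} p) (A 0)
    · by_cases e1 : Disjoint (compo G {x, y, z} p) (A 1)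
      · exact ⟨0, 1, by decide, e0, e1⟩
      · refine ⟨0, 2, by decide, e0, ?_⟩
        by_contra e2
        exact Set.disjoint_left.1 (dA 1 2 (by decide)) (hmeet 1 e1) (hmeet 2 e2)
    · refine ⟨1, 2, by decide, ?_, ?_⟩
      · by_contra e1
        exact Set.disjoint_left.1 (dA 0 1 (by decide)) (hmeet 0 e0) (hmeet 1 e1)
      · by_contra e2
        exact Set.disjoint_left.1 (dA 0 2 (by decide)) (hmeet 0 e0) (hmeet 2 e2)
  obtain ⟨i, j, hij, hi, hj⟩ := hex
  exact hK (minor_trans hm (tri_minor h3 hxy hxz hyz (cA i) (cA j) hi hj (dA i j hij)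
    (sA i) (sA j) (lA i) (lA j)))

theorem minor_mono {W : Type} {H : SimpleGraph W} {G G' : SimpleGraph V} (hle : G ≤ G')
    (h : IsMinor H G) : IsMinor H G' := by
  obtain ⟨μ, h1, h2, h3⟩ := h
  refine ⟨μ, fun a => (h1 a).mono (fun u v huv => hle huv), h2, fun a b hab => ?_⟩
  obtain ⟨x, hx, y, hy, hxy⟩ := h3 a b hab
  exact ⟨x, hx, y, hy, hle hxy⟩

/-- [W-TRI] for an edge-maximal graph without a `K_5` minor: a 3-cut with three sides is a
triangle (letters of H910/Cut) -/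
theorem tri_adj {G : SimpleGraph V} (h3 : Conn3 G) (h : Fin 3 → V) (hinj : Function.Injective h)
    (A : Fin 3 → Set V) (cA : ∀ j, (G.induce (A j)).Connected)
    (hA : ∀ j i, h i ∉ A j) (dA : ∀ i j, i ≠ j → Disjoint (A i) (A j))
    (lA : ∀ j, ∀ u ∈ A j, ∀ v, G.Adj u v → v ∈ A j ∨ ∃ i, v = h i)
    (hK : ¬ IsMinor (⊤ : SimpleGraph (Fin 5)) G)
    (hmax : ∀ u v, u ≠ v → ¬ G.Adj u v → IsMinor (⊤ : SimpleGraph (Fin 5)) (G ⊔ edge u v)) :
    ∀ i j, i ≠ j → G.Adj (h i) (h j) := by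
  intro i j hij
  by_contra hn
  have hmem : ∀ v, (∃ i, v = h i) ↔ v ∈ ({h 0, h 1, h 2} : Set V) := by
    intro v
    simp only [Set.mem_insert_iff, Set.mem_singleton_iff]
    constructor
    · rintro ⟨i, rfl⟩
      fin_cases i
      · exact Or.inl rfl
      · exact Or.inr (Or.inl rfl)
      · exact Or.inr (Or.inr rfl)
    · rintro (e | e | e)
      · exact ⟨0, e⟩
      · exact ⟨1, e⟩
      · exact ⟨2, e⟩
  refine tri_free h3 (hinj.ne (by decide : (0 : Fin 3) ≠ 1)) (hinj.ne (by decide : (0 : Fin 3) ≠ 2))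
    (hinj.ne (by decide : (1 : Fin 3) ≠ 2)) A cA dA (fun j => ?_) (fun j u hu v huv => ?_) hK ?_
  · rw [Set.disjoint_left]
    intro v hv hv'
    obtain ⟨i, rfl⟩ := (hmem v).2 hv
    exact hA j i hv'
  · rcases lA j u hu v huv with e | e
    · exact Or.inl e
    · exact Or.inr ((hmem v).1 e)
  · refine minor_mono ?_ (hmax (h i) (h j) (hinj.ne hij) hn)
    refine sup_le_sup_left ?_ G
    intro u v huv
    rw [edge_adj] at huv
    obtain ⟨(⟨rfl, rfl⟩ | ⟨rfl, rfl⟩), hne⟩ := huv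
    · exact ⟨hne, (hmem _).1 ⟨_, rfl⟩, (hmem _).1 ⟨_, rfl⟩⟩
    · exact ⟨hne, (hmem _).1 ⟨_, rfl⟩, (hmem _).1 ⟨_, rfl⟩⟩

end Vale.Agent.P235.K5.H509
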