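import Vale.Agent.P235.K5.W.Defs
import Vale.Agent.P235.K5.H509.Tri

/-!
# Wagner's step, row [W-TRI]: `SideStmt` of K5/W/Defs, and edge-maximal graphs (helper509)
-/

set_option autoImplicit false

namespace Vale.Agent.P235.K5.H509

open SimpleGraph Vale.Agent.P235.H134 Vale.Agent.P235.H56 Vale.Agent.P235.K5.W

variable {V : Type}

theorem mem_three (s : Fin 3 → V) (v : V) : (∃ i, v = s i) ↔ v ∈ ({s 0, s 1, s 2} : Set V) := by
  simp only [Set.mem_insert_iff, Set.mem_singleton_iff]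
  constructor
  · rintro ⟨i, rfl⟩
    fin_cases i
    · exact Or.inl rfl
    · exact Or.inr (Or.inl rfl)
    · exact Or.inr (Or.inr rfl)
  · rintro (e | e | e)
    · exact ⟨0, e⟩
    · exact ⟨1, e⟩
    · exact ⟨2, e⟩

theorem range_three (s : Fin 3 → V) : Set.range s = {s 0, s 1, s 2} := by
  ext v
  rw [← mem_three s v]
  exact ⟨fun ⟨i, h⟩ => ⟨i, h.symm⟩, fun ⟨i, h⟩ => ⟨i, h.symm⟩⟩

/-- connected closed sets inside the pieces of a cut -/
theorem pieces {G : SimpleGraph V} {s : Fin 3 → V} {C : Fin 3 → Set V}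
    (hne : ∀ i, (C i).Nonempty) (hoff : ∀ i j, s j ∉ C i)
    (hcl : ∀ i, ∀ u ∈ C i, ∀ v, G.Adj u v → v ∈ C i ∨ ∃ j, v = s j) :
    ∃ A : Fin 3 → Set V, (∀ i, A i ⊆ C i) ∧ (∀ i, (G.induce (A i)).Connected) ∧
      ∀ i, Cl G {s 0, s 1, s 2} (A i) := by
  choose p hp using hne
  have hpS : ∀ i, p i ∉ ({s 0, s 1, s 2} : Set V) := by
    intro i h
    obtain ⟨j, hj⟩ := (mem_three s _).2 h
    exact hoff i j (hj ▸ hp i)
  refine ⟨fun i => compo G {s 0, s 1, s 2} (p i), fun i => ?_, fun i => compo_conn G _ _ (hpS i),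
    fun i => compo_cl G _ _⟩
  rintro q ⟨T, hpT, hqT, hT, hc⟩
  have hcl' : Cl G {s 0, s 1, s 2} (C i) := by
    intro u hu v huv
    rcases hcl i u hu v huv with h | h
    · exact Or.inl h
    · exact Or.inr ((mem_three s v).1 h)
  exact sub_of_meet hcl' hc.preconnected hT hpT (hp i) hqT

/-- [W-TRI] -/
theorem sideStmt : SideStmt := by
  intro V _ G s C h3 hinj hne hoff hdis hcl i
  obtain ⟨A, hAC, hAc, hAl⟩ := pieces hne hoff hcl
  have hS : ∀ j, Disjoint ({s 0, s 1, s 2} : Set V) (C j) := by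
    intro j
    rw [Set.disjoint_left]
    intro v hv hv'
    obtain ⟨k, rfl⟩ := (mem_three s v).2 hv
    exact hoff j k hv'
  obtain ⟨j, k, hij, hik, hjk⟩ : ∃ j k : Fin 3, i ≠ j ∧ i ≠ k ∧ j ≠ k := by
    revert i
    decide
  have key := tri_minor h3 (hinj.ne (by decide : (0 : Fin 3) ≠ 1))
    (hinj.ne (by decide : (0 : Fin 3) ≠ 2)) (hinj.ne (by decide : (1 : Fin 3) ≠ 2)) (C := C i)
    (hAc j) (hAc k) ((hdis i j hij).mono_right (hAC j)) ((hdis i k hik).mono_right (hAC k))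
    ((hdis j k hjk).mono (hAC j) (hAC k)) ((hS j).mono_right (hAC j)) ((hS k).mono_right (hAC k))
    (hAl j) (hAl k)
  have e : (SimpleGraph.fromRel fun x y => x ∈ Set.range s ∧ y ∈ Set.range s) =
      cliq {s 0, s 1, s 2} := by
    rw [range_three]
    ext u v
    rw [fromRel_adj]
    constructor
    · rintro ⟨h, h' | h'⟩
      · exact ⟨h, h'⟩
      · exact ⟨h, h'.2, h'.1⟩
    · rintro ⟨h, h'⟩
      exact ⟨h, Or.inl h'⟩
  rw [e, range_three]
  exact key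

/-- `G` with the triangle on a 3-cut with three pieces has no `K_5` minor if `G` has none -/
theorem cut3_free {G : SimpleGraph V} (h3 : Conn3 G) {s : Fin 3 → V} {C : Fin 3 → Set V}
    (hinj : Function.Injective s) (hne : ∀ i, (C i).Nonempty) (hoff : ∀ i j, s j ∉ C i)
    (hdis : ∀ i j, i ≠ j → Disjoint (C i) (C j))
    (hcl : ∀ i, ∀ u ∈ C i, ∀ v, G.Adj u v → v ∈ C i ∨ ∃ j, v = s j) (hK : ¬ IsMinor KF G) :
    ¬ IsMinor KF (G ⊔ cliq (Set.range s)) := by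
  obtain ⟨A, hAC, hAc, hAl⟩ := pieces hne hoff hcl
  rw [range_three]
  refine tri_free h3 (hinj.ne (by decide : (0 : Fin 3) ≠ 1))
    (hinj.ne (by decide : (0 : Fin 3) ≠ 2)) (hinj.ne (by decide : (1 : Fin 3) ≠ 2)) A hAc
    (fun i j hij => (hdis i j hij).mono (hAC i) (hAC j)) (fun j => ?_) hAl hK
  rw [Set.disjoint_left]
  intro v hv hv'
  obtain ⟨k, rfl⟩ := (mem_three s v).2 hv
  exact hoff j k (hAC j hv')

/-- an edge-maximal graph without a `K_5` minor: a 3-cut with three pieces is a triangle -/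
theorem cut3_adj {G : SimpleGraph V} (h3 : Conn3 G) {s : Fin 3 → V} {C : Fin 3 → Set V}
    (hinj : Function.Injective s) (hne : ∀ i, (C i).Nonempty) (hoff : ∀ i j, s j ∉ C i)
    (hdis : ∀ i j, i ≠ j → Disjoint (C i) (C j))
    (hcl : ∀ i, ∀ u ∈ C i, ∀ v, G.Adj u v → v ∈ C i ∨ ∃ j, v = s j) (hK : ¬ IsMinor KF G)
    (hmax : ∀ u v, u ≠ v → ¬ G.Adj u v → IsMinor KF (G ⊔ edge u v)) :
    ∀ i j, i ≠ j → G.Adj (s i) (s j) := by
  intro i j hij
  by_contra hn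
  refine cut3_free h3 hinj hne hoff hdis hcl hK
    (minor_mono ?_ (hmax (s i) (s j) (hinj.ne hij) hn))
  refine sup_le_sup_left ?_ G
  intro u v huv
  rw [edge_adj] at huv
  obtain ⟨(⟨rfl, rfl⟩ | ⟨rfl, rfl⟩), hne'⟩ := huv
  · exact ⟨hne', ⟨_, rfl⟩, ⟨_, rfl⟩⟩
  · exact ⟨hne', ⟨_, rfl⟩, ⟨_, rfl⟩⟩

/-- an edge-maximal graph without a `K_5` minor and without a separating clique of three vertices
has no 3-cut with three pieces -/
theorem no_cut3 {G : SimpleGraph V} (h3 : Conn3 G) (hK : ¬ IsMinor KF G)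
    (hmax : ∀ u v, u ≠ v → ¬ G.Adj u v → IsMinor KF (G ⊔ edge u v))
    (hsep : ∀ X : Set V, (∀ x ∈ X, ∀ y ∈ X, x ≠ y → G.Adj x y) → X.ncard ≤ 3 →
      (G.induce Xᶜ).Preconnected) : ¬ Cut3 G := by
  rintro ⟨s, C, hinj, hne, hoff, hdis, hcl⟩
  have hadj := cut3_adj h3 hinj hne hoff hdis hcl hK hmax
  have hpre := hsep (Set.range s) (by
    rintro _ ⟨i, rfl⟩ _ ⟨j, rfl⟩ hij
    exact hadj i j (fun e => hij (by rw [e]))) (by
    rw [← Set.image_univ]
    refine (Set.ncard_image_le Set.finite_univ).trans ?_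
    rw [Set.ncard_univ, Nat.card_fin])
  obtain ⟨p, hp⟩ := hne 0
  obtain ⟨q, hq⟩ := hne 1
  have hpS : p ∈ (Set.range s)ᶜ := by
    rintro ⟨j, rfl⟩
    exact hoff 0 j hp
  have hqS : q ∈ (Set.range s)ᶜ := by
    rintro ⟨j, rfl⟩
    exact hoff 1 j hq
  have hcl' : Cl G (Set.range s) (C 0) := by
    intro u hu v huv
    rcases hcl 0 u hu v huv with h | ⟨j, h⟩
    · exact Or.inl h
    · exact Or.inr ⟨j, h.symm⟩
  have hsub := sub_of_meet hcl' hpre disjoint_compl_left hpS hp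
  exact Set.disjoint_left.1 (hdis 0 1 (by decide)) (hsub hqS) hq

end Vale.Agent.P235.K5.H509
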