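import Vale.Agent.P235.K5.H509.Max
import Vale.Agent.P235.K5.H509.Side
import Vale.Agent.P235.K5.W.H972.W

/-!
# P235, line K5, [W-CORE] (helper509): edge-maximal graphs without a `K_5` minor and without
separating cliques of at most three vertices
-/

set_option autoImplicit false

namespace Vale.Agent.P235.K5.H509

open SimpleGraph Vale.Agent.P235.H134 Vale.Agent.P235.H56

variable {V : Type}

/-- [W-CORE] an edge-maximal graph without a `K_5` minor which no clique of at most three vertices
separates has no `K_{3,3}` minor or is the Wagner graph -/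
theorem core [Finite V] {G : SimpleGraph V} (hK : ¬ IsMinor (⊤ : SimpleGraph (Fin 5)) G)
    (hmax : ∀ u v, u ≠ v → ¬ G.Adj u v → IsMinor (⊤ : SimpleGraph (Fin 5)) (G ⊔ edge u v))
    (hsep : ∀ X : Set V, (∀ x ∈ X, ∀ y ∈ X, x ≠ y → G.Adj x y) → X.ncard ≤ 3 →
      (G.induce Xᶜ).Preconnected) :
    ¬ IsMinor K33 G ∨ (Nat.card V = 8 ∧ ∀ x y z, G.Adj x y → G.Adj y z → ¬ G.Adj x z) := by
  classical
  by_cases h33 : IsMinor K33 G
  · right
    have h3 : Conn3 G := conn3_of_max hK hmax (fun X hX hc => hsep X hX (by omega))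
    rcases Vale.Agent.P235.K5.W.H972.theoremW' h3 hK h33 with ⟨S, D, hS, cD, oD, dD, lD⟩ | h
    · exfalso
      obtain ⟨x, y, z, hxy, hxz, hyz, rfl⟩ := Finset.card_eq_three.1 hS
      have hmem : ∀ v, (v ∈ ({x, y, z} : Finset V)) ↔ ∃ j, v = (![x, y, z] : Fin 3 → V) j := by
        intro v
        rw [mem_three]
        simp
      refine no_cut3 h3 hK hmax hsep ⟨![x, y, z], D, ?_, ?_, ?_, dD, ?_⟩
      · intro i j hij
        fin_cases i <;> fin_cases j
        · rfl
        · exact absurd hij hxy
        · exact absurd hij hxz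
        · exact absurd hij.symm hxy
        · rfl
        · exact absurd hij hyz
        · exact absurd hij.symm hxz
        · exact absurd hij.symm hyz
        · rfl
      · intro j
        obtain ⟨⟨w, hw⟩⟩ := (cD j).nonempty
        exact ⟨w, hw⟩
      · intro i j hj
        exact Set.disjoint_left.1 (oD i) hj ((hmem _).2 ⟨j, rfl⟩)
      · intro i u hu v huv
        rcases lD i u hu v huv with h | h
        · exact Or.inl h
        · exact Or.inr ((hmem v).1 h)
    · exact h
  · exact Or.inl h33

end Vale.Agent.P235.K5.H509
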