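import Vale.Agent.P235.K5.H509.Tri

/-!
# Edge-maximal graphs without a `K_5` minor and without separating cliques are 3-connected (helper509)
-/

set_option autoImplicit false

namespace Vale.Agent.P235.K5.H509

open SimpleGraph Vale.Agent.P235.H134 Vale.Agent.P235.H56

variable {V : Type}

/-- the side `C` with the edge on `{x, y}` is a minor: `D` is contracted into `x`; `D` sees `x`
and `y` -/
theorem two_minor {G : SimpleGraph V} {x y : V} {C D : Set V}
    (cD : (G.induce D).Connected) (hCD : Disjoint C D) (hDS : Disjoint ({x, y} : Set V) D)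
    (dx : ∃ u ∈ D, G.Adj u x) (dy : ∃ u ∈ D, G.Adj u y) :
    IsMinor ((G ⊔ cliq {x, y}).induce (C ∪ {x, y})) G := by
  classical
  let ν : V → Set V := fun v => {p | p = v ∨ (v = x ∧ p ∈ D)}
  have hνx : ν x = {x} ∪ D := by
    ext p
    constructor
    · rintro (h | ⟨-, h⟩)
      · exact Or.inl h
      · exact Or.inr h
    · rintro (h | h)
      · exact Or.inl h
      · exact Or.inr ⟨rfl, h⟩
  have hνo : ∀ v, v ≠ x → ν v = {v} := by
    intro v h1
    ext p
    constructor
    · rintro (h | ⟨h, -⟩)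
      · exact h
      · exact absurd h h1
    · intro h
      exact Or.inl h
  have hself : ∀ v, v ∈ ν v := fun v => Or.inl rfl
  have hoffD : ∀ v ∈ C ∪ {x, y}, v ∉ D := by
    rintro v (hv | hv)
    · exact Set.disjoint_left.1 hCD hv
    · exact Set.disjoint_left.1 hDS hv
  refine ⟨fun v => ν v.1, fun v => ?_, fun v w hvw => ?_, fun v w hvw => ?_⟩
  · show (G.induce (ν v.1)).Connected
    by_cases h1 : v.1 = x
    · obtain ⟨u, hu, hux⟩ := dx
      rw [h1, hνx]
      exact conn_insert cD hu hux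
    rw [hνo v.1 h1]
    exact conn_single G v.1
  · show Disjoint (ν v.1) (ν w.1)
    have hne : v.1 ≠ w.1 := fun h => hvw (Subtype.ext h)
    rw [Set.disjoint_left]
    rintro p (hp | ⟨hp, hp'⟩) (hq | ⟨hq, hq'⟩)
    · exact hne (hp.symm.trans hq)
    · exact hoffD v.1 v.2 (hp ▸ hq')
    · exact hoffD w.1 w.2 (hq ▸ hp')
    · exact hne (hp.trans hq.symm)
  · show ∃ p ∈ ν v.1, ∃ q ∈ ν w.1, G.Adj p q
    have hxyp : ∃ p ∈ ν x, ∃ q ∈ ν y, G.Adj p q := by
      obtain ⟨u, hu, h⟩ := dy
      exact ⟨u, Or.inr ⟨rfl, hu⟩, y, hself y, h⟩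
    have hvw' : G.Adj v.1 w.1 ∨ (v.1 ≠ w.1 ∧ v.1 ∈ ({x, y} : Set V) ∧
        w.1 ∈ ({x, y} : Set V)) := hvw
    rcases hvw' with h | ⟨hne, hv, hw⟩
    · exact ⟨v.1, hself _, w.1, hself _, h⟩
    · generalize v.1 = a at hne hv ⊢
      generalize w.1 = b at hne hw ⊢
      rcases hv with rfl | rfl <;> rcases hw with rfl | rfl
      · exact absurd rfl hne
      · exact hxyp
      · obtain ⟨p, hp, q, hq, h⟩ := hxyp
        exact ⟨q, hq, p, hp, h.symm⟩
      · exact absurd rfl hne

/-- an edge-maximal graph without a `K_5` minor which no clique of at most two vertices separates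
is 3-connected -/
theorem conn3_of_max {G : SimpleGraph V} (hK : ¬ IsMinor (⊤ : SimpleGraph (Fin 5)) G)
    (hmax : ∀ u v, u ≠ v → ¬ G.Adj u v → IsMinor (⊤ : SimpleGraph (Fin 5)) (G ⊔ edge u v))
    (hsep : ∀ X : Set V, (∀ x ∈ X, ∀ y ∈ X, x ≠ y → G.Adj x y) → X.ncard ≤ 2 →
      (G.induce Xᶜ).Preconnected) : Conn3 G := by
  -- a closed set off a clique is everything
  have hall : ∀ X : Set V, (∀ x ∈ X, ∀ y ∈ X, x ≠ y → G.Adj x y) → X.ncard ≤ 2 →
      ∀ C : Set V, Cl G X C → Disjoint C X → C.Nonempty → ∀ y, y ∈ C ∨ y ∈ X := by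
    rintro X hX hc C hcl hd ⟨p, hp⟩ y
    by_cases hy : y ∈ X
    · exact Or.inr hy
    · exact Or.inl (sub_of_meet hcl (hsep X hX hc) disjoint_compl_left
        (Set.disjoint_left.1 hd hp) hp hy)
  intro s t C hC hs ht hcl y
  have hclC : Cl G {s, t} C := fun u hu v huv => hcl u hu v huv
  have hdC : Disjoint C {s, t} := by
    rw [Set.disjoint_left]
    rintro v hv (rfl | rfl)
    · exact hs hv
    · exact ht hv
  have hcard : ({s, t} : Set V).ncard ≤ 2 := (Set.ncard_insert_le s {t}).trans (by simp)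
  by_cases hst : s = t ∨ G.Adj s t
  · have hX : ∀ x ∈ ({s, t} : Set V), ∀ y ∈ ({s, t} : Set V), x ≠ y → G.Adj x y := by
      rintro x (rfl | rfl) z (rfl | rfl) hne
      · exact absurd rfl hne
      · rcases hst with rfl | h
        · exact absurd rfl hne
        · exact h
      · rcases hst with rfl | h
        · exact absurd rfl hne
        · exact h.symm
      · exact absurd rfl hne
    rcases hall _ hX hcard C hclC hdC hC y with h | h | h
    · exact Or.inl h
    · exact Or.inr (Or.inl h)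
    · exact Or.inr (Or.inr h)
  · by_contra hy
    have hst' : s ≠ t := fun e => hst (Or.inl e)
    have hnadj : ¬ G.Adj s t := fun e => hst (Or.inr e)
    -- every side sees `s` and `t`
    have hsee : ∀ a b : V, a ≠ b → (∀ D : Set V, D.Nonempty → a ∉ D → b ∉ D →
        (∀ u ∈ D, ∀ v, G.Adj u v → v ∈ D ∨ v = a ∨ v = b) → ∃ u ∈ D, G.Adj u b) := by
      intro a b hab D hD ha hb hcl
      by_contra hn
      have h1 := hall {a} (by
        rintro x rfl z rfl hne
        exact absurd rfl hne) (by simp) D (fun u hu v huv => by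
          rcases hcl u hu v huv with h | h | h
          · exact Or.inl h
          · exact Or.inr h
          · exact absurd ⟨u, hu, h ▸ huv⟩ hn) (by
          rw [Set.disjoint_left]
          rintro v hv rfl
          exact ha hv) hD b
      rcases h1 with h1 | h1
      · exact hb h1
      · exact hab (show b = a from h1).symm
    have hm := hmax s t hst' hnadj
    have e : ({s, t, t} : Set V) = {s, t} := by
      ext v
      simp
    have hle : G ⊔ edge s t ≤ G ⊔ cliq {s, t, t} := by
      refine sup_le_sup_left ?_ G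
      intro u v huv
      rw [edge_adj] at huv
      obtain ⟨(⟨rfl, rfl⟩ | ⟨rfl, rfl⟩), hne⟩ := huv
      · exact ⟨hne, by simp, by simp⟩
      · exact ⟨hne, by simp, by simp⟩
    obtain ⟨p, hp, hm'⟩ := k5_side (minor_mono hle hm)
    rw [e] at hp hm'
    -- another component
    have hyS : y ∉ ({s, t} : Set V) := by
      rintro (h | h)
      · exact hy (Or.inr (Or.inl h))
      · exact hy (Or.inr (Or.inr h))
    obtain ⟨c, hc⟩ := hC
    have hcS : c ∉ ({s, t} : Set V) := Set.disjoint_left.1 hdC hc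
    have hex : ∃ q, q ∉ ({s, t} : Set V) ∧ Disjoint (compo G {s, t} p) (compo G {s, t} q) := by
      have hself : ∀ r, r ∉ ({s, t} : Set V) → r ∈ compo G {s, t} r := fun r hr =>
        ⟨{r}, rfl, rfl, Set.disjoint_left.2 (fun w hw => (show w = r from hw) ▸ hr),
          conn_single G r⟩
      by_cases hpC : p ∈ C
      · refine ⟨y, hyS, ?_⟩
        rw [Set.disjoint_left]
        rintro w ⟨T, hpT, hwT, hT, hcT⟩ ⟨T', hyT, hwT', hT', hcT'⟩
        have hwC := sub_of_meet hclC hcT.preconnected hT hpT hpC hwT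
        exact hy (Or.inl (sub_of_meet hclC hcT'.preconnected hT' hwT' hwC hyT))
      · refine ⟨c, hcS, ?_⟩
        rw [Set.disjoint_left]
        rintro w ⟨T, hpT, hwT, hT, hcT⟩ ⟨T', hcT0, hwT', hT', hcT'⟩
        have hwC := sub_of_meet hclC hcT'.preconnected hT' hcT0 hc hwT'
        exact hpC (sub_of_meet hclC hcT.preconnected hT hwT hwC hpT)
    obtain ⟨q, hq, hdis⟩ := hex
    have hoff := compo_off G {s, t} q
    have hqs : s ∉ compo G {s, t} q := fun h => Set.disjoint_left.1 hoff h (Or.inl rfl)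
    have hqt : t ∉ compo G {s, t} q := fun h => Set.disjoint_left.1 hoff h (Or.inr rfl)
    have hcq := compo_conn G {s, t} q hq
    have hne : (compo G {s, t} q).Nonempty := by
      obtain ⟨⟨w, hw⟩⟩ := hcq.nonempty
      exact ⟨w, hw⟩
    have hcl1 : ∀ u ∈ compo G {s, t} q, ∀ v, G.Adj u v → v ∈ compo G {s, t} q ∨ v = s ∨ v = t :=
      fun u hu v huv => compo_cl G {s, t} q u hu v huv
    have hcl2 : ∀ u ∈ compo G {s, t} q, ∀ v, G.Adj u v → v ∈ compo G {s, t} q ∨ v = t ∨ v = s :=
      fun u hu v huv => (hcl1 u hu v huv).imp_right Or.symm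
    exact hK (minor_trans hm' (two_minor hcq hdis hoff.symm
      (hsee t s hst'.symm _ hne hqt hqs hcl2) (hsee s t hst' _ hne hqs hqt hcl1)))

end Vale.Agent.P235.K5.H509
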