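import Vale.Agent.P235.K5.H509.Side
import Vale.Agent.P235.K5.W.H246.Touch

/-!
# P235, line K5: in a 3-connected graph a side of a separation of order three, with the triangle on
the separator, is a minor if the other side has at least two own vertices (helper509)
-/

set_option autoImplicit false

namespace Vale.Agent.P235.K5.H509

open SimpleGraph Vale.Agent.P235.H134 Vale.Agent.P235.H56

variable {V : Type}

/-- three rooted, pairwise touching connected sets off `C`: `C` with the triangle is a minor -/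
theorem rooted_minor {G : SimpleGraph V} {s : Fin 3 → V}
    {X : Fin 3 → Set V} (hX : ∀ i, (G.induce (X i)).Connected) (hs : ∀ i, s i ∈ X i)
    (hd : ∀ i j, i ≠ j → Disjoint (X i) (X j))
    (ht : ∀ i j, i ≠ j → ∃ u ∈ X i, ∃ v ∈ X j, G.Adj u v) {C : Set V}
    (hC : ∀ v ∈ C, ∀ i, v ∈ X i → v = s i) :
    IsMinor ((G ⊔ cliq (Set.range s)).induce (C ∪ Set.range s)) G := by
  have hone : ∀ v ∈ C ∪ Set.range s, ∀ j, v ∈ X j → v = s j := by
    rintro v (hv | ⟨i, rfl⟩) j hj
    · exact hC v hv j hj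
    · by_cases e : i = j
      · rw [e]
      · exact absurd hj (Set.disjoint_left.1 (hd i j e) (hs i))
  have hinj : Function.Injective s := by
    intro i j hij
    by_contra e
    exact Set.disjoint_left.1 (hd i j e) (hs i) (hij ▸ hs j)
  let ν : V → Set V := fun v => {p | p = v ∨ ∃ i, v = s i ∧ p ∈ X i}
  have hνs : ∀ i, ν (s i) = X i := by
    intro i
    ext p
    constructor
    · rintro (h | ⟨j, h, hp⟩)
      · rw [show p = s i from h]
        exact hs i
      · rw [hinj h]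
        exact hp
    · intro hp
      exact Or.inr ⟨i, rfl, hp⟩
  have hνo : ∀ v, (∀ i, v ≠ s i) → ν v = {v} := by
    intro v hv
    ext p
    constructor
    · rintro (h | ⟨j, h, -⟩)
      · exact h
      · exact absurd h (hv j)
    · intro h
      exact Or.inl h
  have hself : ∀ v, v ∈ ν v := fun v => Or.inl rfl
  refine ⟨fun v => ν v.1, fun v => ?_, fun v w hvw => ?_, fun v w hvw => ?_⟩
  · show (G.induce (ν v.1)).Connected
    by_cases h : ∃ i, v.1 = s i
    · obtain ⟨i, hi⟩ := h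
      rw [hi, hνs]
      exact hX i
    · rw [hνo v.1 (fun i hi => h ⟨i, hi⟩)]
      exact conn_single G v.1
  · show Disjoint (ν v.1) (ν w.1)
    have hne : v.1 ≠ w.1 := fun h => hvw (Subtype.ext h)
    rw [Set.disjoint_left]
    rintro p (hp | ⟨i, hi, hp⟩) (hq | ⟨j, hj, hq⟩)
    · exact hne (hp.symm.trans hq)
    · exact hne ((hone v.1 v.2 j (hp ▸ hq)).trans hj.symm)
    · exact hne (hi.trans (hone w.1 w.2 i (hq ▸ hp)).symm)
    · by_cases e : i = j
      · exact hne (hi.trans (e ▸ hj.symm))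
      · exact Set.disjoint_left.1 (hd i j e) hp hq
  · show ∃ p ∈ ν v.1, ∃ q ∈ ν w.1, G.Adj p q
    have hvw' : G.Adj v.1 w.1 ∨ (v.1 ≠ w.1 ∧ v.1 ∈ Set.range s ∧ w.1 ∈ Set.range s) := hvw
    rcases hvw' with h | ⟨hne, ⟨i, hi⟩, ⟨j, hj⟩⟩
    · exact ⟨v.1, hself _, w.1, hself _, h⟩
    · rw [← hi, ← hj, hνs, hνs]
      exact ht i j (fun e => hne (by rw [← hi, ← hj, e]))

/-- distribution of three labels -/
theorem labels (P Q : Fin 3 → Prop) (hP : ∃ i j, i ≠ j ∧ P i ∧ P j) (hQ : ∃ i j, i ≠ j ∧ Q i ∧ Q j)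
    (h : ∀ m, P m ∨ Q m) : ∃ m p q, m ≠ p ∧ m ≠ q ∧ p ≠ q ∧ P m ∧ Q m ∧ P p ∧ Q q := by
  have two : ∀ R : Fin 3 → Prop, (∃ i j, i ≠ j ∧ R i ∧ R j) →
      (R 0 ∧ R 1) ∨ (R 0 ∧ R 2) ∨ (R 1 ∧ R 2) := by
    rintro R ⟨i, j, hij, hi, hj⟩
    fin_cases i <;> fin_cases j
    · exact absurd rfl hij
    · exact Or.inl ⟨hi, hj⟩
    · exact Or.inr (Or.inl ⟨hi, hj⟩)
    · exact Or.inl ⟨hj, hi⟩
    · exact absurd rfl hij
    · exact Or.inr (Or.inr ⟨hi, hj⟩)
    · exact Or.inr (Or.inl ⟨hj, hi⟩)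
    · exact Or.inr (Or.inr ⟨hj, hi⟩)
    · exact absurd rfl hij
  rcases two P hP with ⟨p0, p1⟩ | ⟨p0, p2⟩ | ⟨p1, p2⟩ <;>
    rcases two Q hQ with ⟨q0, q1⟩ | ⟨q0, q2⟩ | ⟨q1, q2⟩
  · rcases h 2 with h | h
    · exact ⟨0, 2, 1, by decide, by decide, by decide, p0, q0, h, q1⟩
    · exact ⟨0, 1, 2, by decide, by decide, by decide, p0, q0, p1, h⟩
  · exact ⟨0, 1, 2, by decide, by decide, by decide, p0, q0, p1, q2⟩
  · exact ⟨1, 0, 2, by decide, by decide, by decide, p1, q1, p0, q2⟩
  · exact ⟨0, 2, 1, by decide, by decide, by decide, p0, q0, p2, q1⟩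
  · rcases h 1 with h | h
    · exact ⟨0, 1, 2, by decide, by decide, by decide, p0, q0, h, q2⟩
    · exact ⟨0, 2, 1, by decide, by decide, by decide, p0, q0, p2, h⟩
  · exact ⟨2, 0, 1, by decide, by decide, by decide, p2, q2, p0, q1⟩
  · exact ⟨1, 2, 0, by decide, by decide, by decide, p1, q1, p2, q0⟩
  · exact ⟨2, 1, 0, by decide, by decide, by decide, p2, q2, p1, q0⟩
  · rcases h 0 with h | h
    · exact ⟨1, 0, 2, by decide, by decide, by decide, p1, q1, h, q2⟩
    · exact ⟨1, 2, 0, by decide, by decide, by decide, p1, q1, p2, h⟩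

theorem touch_of_conn {G : SimpleGraph V} {D P Q : Set V} (hD : (G.induce D).Connected)
    (hPQ : P ∪ Q = D) (hd : Disjoint P Q) (hP : P.Nonempty) (hQ : Q.Nonempty) :
    ∃ u ∈ P, ∃ v ∈ Q, G.Adj u v := by
  by_contra hn
  obtain ⟨p, hp⟩ := hP
  obtain ⟨q, hq⟩ := hQ
  have hcl : Cl G Dᶜ P := by
    intro u hu v huv
    by_cases hv : v ∈ D
    · rw [← hPQ] at hv
      rcases hv with hv | hv
      · exact Or.inl hv
      · exact absurd ⟨u, hu, v, hv, huv⟩ hn
    · exact Or.inr hv
  have hsub := sub_of_meet hcl hD.preconnected disjoint_compl_right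
    (show p ∈ D from hPQ ▸ Or.inl hp) hp
  exact Set.disjoint_left.1 hd (hsub (show q ∈ D from hPQ ▸ Or.inr hq)) hq

/-- **the torso of a separation of order three of a 3-connected graph is a minor** if the other
side `D` has at least two own vertices -/
theorem torso_minor [Finite V] {G : SimpleGraph V} (h3 : Conn3 G) {s : Fin 3 → V}
    (hinj : Function.Injective s) {C D : Set V} (hCD : Disjoint C D)
    (hDS : Disjoint (Set.range s) D) (lD : Cl G (Set.range s) D)
    (h2 : ∃ p ∈ D, ∃ q ∈ D, p ≠ q) :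
    IsMinor ((G ⊔ cliq (Set.range s)).induce (C ∪ Set.range s)) G := by
  classical
  obtain ⟨p, hp, q, hq, hpq⟩ := h2
  have hoff : ∀ r ∈ D, r ∉ Set.range s := fun r hr hr' => Set.disjoint_left.1 hDS hr' hr
  have hsD : ∀ i, s i ∉ D := fun i hi => Set.disjoint_left.1 hDS ⟨i, rfl⟩ hi
  have hcompD : ∀ r ∈ D, compo G (Set.range s) r ⊆ D := by
    rintro r hr v ⟨T, hrT, hvT, hT, hc⟩
    exact sub_of_meet lD hc.preconnected hT hrT hr hvT
  have hself : ∀ r, r ∉ Set.range s → r ∈ compo G (Set.range s) r := fun r hr =>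
    ⟨{r}, rfl, rfl, Set.disjoint_left.2 (fun w hw => (show w = r from hw) ▸ hr), conn_single G r⟩
  by_cases hcon : q ∈ compo G (Set.range s) p
  · -- the component `K` of `p`
    obtain ⟨K, hKdef⟩ : ∃ K, K = compo G (Set.range s) p := ⟨_, rfl⟩
    have hKD : K ⊆ D := hKdef ▸ hcompD p hp
    have hKc : (G.induce K).Connected := hKdef ▸ compo_conn G _ _ (hoff p hp)
    have hKl : Cl G (Set.range s) K := hKdef ▸ compo_cl G _ _
    have hpK : p ∈ K := hKdef ▸ hself p (hoff p hp)
    have hqK : q ∈ K := hKdef ▸ hcon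
    have hCK : Disjoint C K := hCD.mono_right hKD
    have hsK : ∀ i, s i ∉ K := fun i hi => hsD i (hKD hi)
    -- `K` sees every `s i`
    have hsee : ∀ i, ∃ u ∈ K, G.Adj u (s i) := by
      intro i
      obtain ⟨j, k, hij, hik, hjk⟩ : ∃ j k : Fin 3, i ≠ j ∧ i ≠ k ∧ j ≠ k := by
        revert i
        decide
      have hall : ∀ l : Fin 3, l = j ∨ l = k ∨ l = i := by
        revert i j k
        decide
      refine sees h3 ⟨p, hpK⟩ (hsK j) (hsK k) (hsK i) (hinj.ne hij) (hinj.ne hik) ?_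
      intro u hu v huv
      rcases hKl u hu v huv with h | ⟨l, rfl⟩
      · exact Or.inl h
      · right
        rcases hall l with rfl | rfl | rfl
        · exact Or.inl rfl
        · exact Or.inr (Or.inl rfl)
        · exact Or.inr (Or.inr rfl)
    have htch : ∀ i, Vale.Agent.P235.K5.W.H531.Tch G K {s i} := fun i => by
      obtain ⟨u, hu, h⟩ := hsee i
      exact ⟨u, hu, s i, rfl, h⟩
    have hsub1 : ∀ {Z : Set V} {i : Fin 3}, Vale.Agent.P235.K5.W.H531.Tch G Z {s i} →
        ∃ u ∈ Z, G.Adj u (s i) := by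
      rintro Z i ⟨u, hu, v, hv, h⟩
      exact ⟨u, hu, (show v = s i from hv) ▸ h⟩
    -- sets `{s i} ∪ Z i`
    have main : ∀ Z : Fin 3 → Set V, (∀ i, Z i ⊆ K) → (∀ i j, i ≠ j → Disjoint (Z i) (Z j)) →
        (∀ i, Z i = ∅ ∨ ((G.induce (Z i)).Connected ∧ ∃ u ∈ Z i, G.Adj u (s i))) →
        (∀ i j, i ≠ j → ∃ u ∈ {s i} ∪ Z i, ∃ v ∈ {s j} ∪ Z j, G.Adj u v) →
        IsMinor ((G ⊔ cliq (Set.range s)).induce (C ∪ Set.range s)) G := by
      intro Z hZ hZd hZc hZt
      refine rooted_minor (X := fun i => {s i} ∪ Z i) (fun i => ?_) (fun i => Or.inl rfl)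
        (fun i j hij => ?_) hZt (fun v hv i hv' => ?_)
      · rcases hZc i with h | ⟨h, u, hu, hus⟩
        · show (G.induce ({s i} ∪ Z i)).Connected
          rw [h, Set.union_empty]
          exact conn_single G (s i)
        · exact conn_insert h hu hus
      · rw [Set.disjoint_left]
        rintro v (hv | hv) (hv' | hv')
        · exact hinj.ne hij ((show v = s i from hv).symm.trans hv')
        · exact hsK i (hZ j ((show v = s i from hv) ▸ hv'))
        · exact hsK j (hZ i ((show v = s j from hv') ▸ hv))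
        · exact Set.disjoint_left.1 (hZd i j hij) hv hv'
      · rcases hv' with hv' | hv'
        · exact hv'
        · exact absurd (hZ i hv') (Set.disjoint_left.1 hCK hv)
    rcases Vale.Agent.P235.K5.W.H246.trichotomy hKc (fun i => {s i}) htch with
      ⟨P, Q, hPQ, hdPQ, cP, cQ, ⟨i, j, hij, hPi, hPj⟩, ⟨k, l, hkl, hQk, hQl⟩⟩ |
      ⟨Y, hY, dY, cY, tY, oY⟩ | ⟨h, hh, hhub⟩
    · -- fat
      have hall : ∀ m, (∃ u ∈ P, G.Adj u (s m)) ∨ ∃ u ∈ Q, G.Adj u (s m) := by
        intro m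
        obtain ⟨u, hu, hus⟩ := hsee m
        rw [← hPQ] at hu
        rcases hu with hu | hu
        · exact Or.inl ⟨u, hu, hus⟩
        · exact Or.inr ⟨u, hu, hus⟩
      obtain ⟨m, a, b, hma, hmb, hab, hPm, hQm, hPa, hQb⟩ := labels
        (fun m => ∃ u ∈ P, G.Adj u (s m)) (fun m => ∃ u ∈ Q, G.Adj u (s m))
        ⟨i, j, hij, hsub1 hPi, hsub1 hPj⟩ ⟨k, l, hkl, hsub1 hQk, hsub1 hQl⟩ hall
      have hPn : P.Nonempty := by
        obtain ⟨u, hu, -⟩ := hPm
        exact ⟨u, hu⟩
      have hQn : Q.Nonempty := by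
        obtain ⟨u, hu, -⟩ := hQm
        exact ⟨u, hu⟩
      have hPQt := touch_of_conn hKc hPQ hdPQ hPn hQn
      have hthree : ∀ i : Fin 3, i = m ∨ i = a ∨ i = b :=
        (by decide : ∀ m a b : Fin 3, m ≠ a → m ≠ b → a ≠ b →
          ∀ i : Fin 3, i = m ∨ i = a ∨ i = b) m a b hma hmb hab
      let Z : Fin 3 → Set V := fun i => if i = a then P else if i = b then Q else ∅
      have hZa : Z a = P := if_pos rfl
      have hZb : Z b = Q := (if_neg hab.symm).trans (if_pos rfl)
      have hZm : Z m = ∅ := (if_neg hma).trans (if_neg hmb)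
      have tam : ∃ u ∈ {s a} ∪ Z a, ∃ v ∈ {s m} ∪ Z m, G.Adj u v := by
        obtain ⟨u, hu, h⟩ := hPm
        exact ⟨u, Or.inr (hZa ▸ hu), s m, Or.inl rfl, h⟩
      have tbm : ∃ u ∈ {s b} ∪ Z b, ∃ v ∈ {s m} ∪ Z m, G.Adj u v := by
        obtain ⟨u, hu, h⟩ := hQm
        exact ⟨u, Or.inr (hZb ▸ hu), s m, Or.inl rfl, h⟩
      have tab : ∃ u ∈ {s a} ∪ Z a, ∃ v ∈ {s b} ∪ Z b, G.Adj u v := by
        obtain ⟨u, hu, v, hv, h⟩ := hPQt
        exact ⟨u, Or.inr (hZa ▸ hu), v, Or.inr (hZb ▸ hv), h⟩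
      have hsw : ∀ i j, (∃ u ∈ {s i} ∪ Z i, ∃ v ∈ {s j} ∪ Z j, G.Adj u v) →
          ∃ u ∈ {s j} ∪ Z j, ∃ v ∈ {s i} ∪ Z i, G.Adj u v := by
        rintro i j ⟨u, hu, v, hv, h⟩
        exact ⟨v, hv, u, hu, h.symm⟩
      refine main Z (fun i => ?_) (fun i j hij => ?_) (fun i => ?_) (fun i j hij => ?_)
      · rcases hthree i with rfl | rfl | rfl
        · rw [hZm]
          exact Set.empty_subset K
        · rw [hZa]
          exact hPQ ▸ Set.subset_union_left
        · rw [hZb]
          exact hPQ ▸ Set.subset_union_right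
      · rcases hthree i with rfl | rfl | rfl <;> rcases hthree j with rfl | rfl | rfl
        all_goals first
          | exact absurd rfl hij
          | (rw [hZm]; exact Set.empty_disjoint _)
          | (rw [hZm]; exact Set.disjoint_empty _)
          | (rw [hZa, hZb]; exact hdPQ)
          | (rw [hZa, hZb]; exact hdPQ.symm)
      · rcases hthree i with rfl | rfl | rfl
        · exact Or.inl hZm
        · rw [hZa]
          exact Or.inr ⟨cP, hPa⟩
        · rw [hZb]
          exact Or.inr ⟨cQ, hQb⟩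
      · rcases hthree i with rfl | rfl | rfl <;> rcases hthree j with rfl | rfl | rfl
        all_goals first
          | exact absurd rfl hij
          | exact tam
          | exact tbm
          | exact tab
          | exact hsw _ _ tam
          | exact hsw _ _ tbm
          | exact hsw _ _ tab
    · -- triangle
      refine main Y (fun i => ?_) dY (fun i => Or.inr ⟨cY i, hsub1 ((oY i i).2 rfl)⟩)
        (fun i j hij => ?_)
      · rw [← hY]
        exact Set.subset_iUnion Y i
      · obtain ⟨u, hu, v, hv, h⟩ := tY i j hij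
        exact ⟨u, Or.inr hu, v, Or.inr hv, h⟩
    · -- hub
      exfalso
      have hhS : h ∉ Set.range s := hoff h (hKD hh)
      obtain ⟨r, hrK, hrh⟩ : ∃ r ∈ K, r ≠ h := by
        by_cases e : p = h
        · exact ⟨q, hqK, fun e' => hpq (e.trans e'.symm)⟩
        · exact ⟨p, hpK, e⟩
      have hrS : r ∉ insert h (Set.range s) := by
        rintro (e | e)
        · exact hrh e
        · exact hoff r (hKD hrK) e
      have hLK : compo G (insert h (Set.range s)) r ⊆ K := by
        rintro v ⟨T, hrT, hvT, hT, hc⟩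
        exact sub_of_meet hKl hc.preconnected (hT.mono_right (Set.subset_insert _ _)) hrT hrK hvT
      have hLc := compo_conn G _ r hrS
      have hLl := compo_cl G (insert h (Set.range s)) r
      have hLo := compo_off G (insert h (Set.range s)) r
      have hrL : r ∈ compo G (insert h (Set.range s)) r :=
        ⟨{r}, rfl, rfl, Set.disjoint_left.2 (fun w hw => (show w = r from hw) ▸ hrS),
          conn_single G r⟩
      have hhL : h ∉ compo G (insert h (Set.range s)) r :=
        fun e => Set.disjoint_left.1 hLo e (Or.inl rfl)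
      have hsL : ∀ i, s i ∉ compo G (insert h (Set.range s)) r :=
        fun i e => Set.disjoint_left.1 hLo e (Or.inr ⟨i, rfl⟩)
      have hun := hhub _ hLK hhL hLc
      obtain ⟨i₀, hi₀⟩ : ∃ i₀, ∀ i, (∃ u ∈ compo G (insert h (Set.range s)) r,
          G.Adj u (s i)) → i = i₀ := by
        by_cases e : ∃ i, ∃ u ∈ compo G (insert h (Set.range s)) r, G.Adj u (s i)
        · obtain ⟨i, u, hu, hus⟩ := e
          refine ⟨i, fun j ⟨v, hv, hvs⟩ => ?_⟩
          exact hun j i ⟨v, hv, s j, rfl, hvs⟩ ⟨u, hu, s i, rfl, hus⟩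
        · exact ⟨0, fun i hi => absurd ⟨i, hi⟩ e⟩
      obtain ⟨j, hj⟩ : ∃ j : Fin 3, j ≠ i₀ := (by decide : ∀ i : Fin 3, ∃ j : Fin 3, j ≠ i) i₀
      rcases h3 h (s i₀) (compo G (insert h (Set.range s)) r) ⟨r, hrL⟩ hhL (hsL i₀)
        (fun u hu v huv => by
          rcases hLl u hu v huv with e | e | ⟨l, rfl⟩
          · exact Or.inl e
          · exact Or.inr (Or.inl e)
          · exact Or.inr (Or.inr (by rw [hi₀ l ⟨u, hu, huv⟩]))) (s j) with e | e | e
      · exact hsL j e
      · exact hsK j (e ▸ hh)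
      · exact hj (hinj e)
  · -- two components in `D`
    have hd1 : Disjoint (compo G (Set.range s) p) (compo G (Set.range s) q) := by
      rw [Set.disjoint_left]
      rintro v ⟨T, hpT, hvT, hT, hc⟩ hvq
      have hcl := compo_cl G (Set.range s) q
      have h1 : p ∈ compo G (Set.range s) q := sub_of_meet hcl hc.preconnected hT hvT hvq hpT
      obtain ⟨T', hqT', hpT', hT', hc'⟩ := h1
      exact hcon ⟨T', hpT', hqT', hT', hc'⟩
    have hr := range_three s
    have hpS := hoff p hp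
    have hqS := hoff q hq
    have key := tri_minor h3 (hinj.ne (by decide : (0 : Fin 3) ≠ 1))
      (hinj.ne (by decide : (0 : Fin 3) ≠ 2)) (hinj.ne (by decide : (1 : Fin 3) ≠ 2)) (C := C)
      (compo_conn G _ p hpS) (compo_conn G _ q hqS) (hCD.mono_right (hcompD p hp))
      (hCD.mono_right (hcompD q hq)) hd1 (hr ▸ (compo_off G _ p).symm)
      (hr ▸ (compo_off G _ q).symm) (by
        have := compo_cl G (Set.range s) p
        rw [hr] at this ⊢
        exact this) (by
        have := compo_cl G (Set.range s) q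
        rw [hr] at this ⊢
        exact this)
    rw [hr]
    exact key

end Vale.Agent.P235.K5.H509
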